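import Vale.Agent.Lib.P154.AFSound
import Vale.Agent.Lib.P154.SP.Prog
import Vale.Agent.Lib.P154.SN.RealDefs

/-! Real values of the programs. -/

namespace Vale.Agent.Lib.P154

namespace SP

open SN

/-- Value of x6. -/
noncomputable def cx6 (r b l u : ℝ) : ℝ := (caq r b l u - rv 281475312254976)

/-- Value of y6. -/
noncomputable def cy6 (r b l u : ℝ) : ℝ := (ctq r b l u - rv 281475089956864)

/-- Value of Ab6. -/
noncomputable def cAb6 (r b l u : ℝ) : ℝ := AbF (cx6 r b l u) (cy6 r b l u)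

/-- Value of Bb6. -/
noncomputable def cBb6 (r b l u : ℝ) : ℝ := BbF (cx6 r b l u) (cy6 r b l u)

/-- Value of Bq6. -/
noncomputable def cBq6 (r b l u : ℝ) : ℝ := (cBb6 r b l u * cBb6 r b l u)

/-- Value of Lq6. -/
noncomputable def cLq6 (r b l u : ℝ) : ℝ := (l * l)

/-- Value of dn6. -/
noncomputable def cdn6 (r b l u : ℝ) : ℝ := (rv 281475245146112 + (rv 281475083665408 * (cBb6 r b l u * cXv r b l u)))

/-- Value of rhs6. -/
noncomputable def crhs6 (r b l u : ℝ) : ℝ := (((cLq6 r b l u * cAb6 r b l u) + (rv 281475034122496 * (cBq6 r b l u * (cdn6 r b l u)⁻¹))) + rv 281474976776192)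

/-- Value of the program K6c. -/
noncomputable def RK6c (r b l u : ℝ) : ℝ := ((cMt r b l u * (cS r b l u * cS r b l u)) - ((cNn r b l u * cNn r b l u) * crhs6 r b l u))

set_option maxRecDepth 100000 in
theorem evR_K6c (r b l u : ℝ) : Ex.evR K6c [r, b, l, u] = RK6c r b l u :=
  evR_lc (v := ch r b l u) rfl (evR_lc (v := cg r b l u) rfl (evR_lc (v := cg2 r b l u) rfl (evR_lc (v := cg3 r b l u) rfl (evR_lc (v := cg4 r b l u) rfl (evR_lc (v := cg5 r b l u) rfl (evR_lc (v := cg6 r b l u) rfl (evR_lc (v := cg7 r b l u) rfl (evR_lc (v := cg8 r b l u) rfl (evR_lc (v := cg9 r b l u) rfl (evR_lc (v := ch2 r b l u) rfl (evR_lc (v := ch3 r b l u) rfl (evR_lc (v := ch4 r b l u) rfl (evR_lc (v := ch5 r b l u) rfl (evR_lc (v := ch6 r b l u) rfl (evR_lc (v := cMt r b l u) rfl (evR_lc (v := cst r b l u) rfl (evR_lc (v := cts r b l u) rfl (evR_lc (v := cS r b l u) rfl (evR_lc (v := cy0 r b l u) rfl (evR_lc (v := cy1 r b l u) rfl (evR_lc (v := cy2 r b l u) rfl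 (evR_lc (v := cD0 r b l u) rfl (evR_lc (v := cD1 r b l u) rfl (evR_lc (v := cD2 r b l u) rfl (evR_lc (v := cP0 r b l u) rfl (evR_lc (v := cP1 r b l u) rfl (evR_lc (v := cPt r b l u) rfl (evR_lc (v := cn0 r b l u) rfl (evR_lc (v := cn1 r b l u) rfl (evR_lc (v := cn2 r b l u) rfl (evR_lc (v := cNn r b l u) rfl (evR_lc (v := ciS r b l u) rfl (evR_lc (v := cXv r b l u) rfl (evR_lc (v := caq r b l u) rfl (evR_lc (v := ctq r b l u) rfl (evR_lc (v := cx6 r b l u) rfl (evR_lc (v := cy6 r b l u) rfl (evR_lc (v := cAb6 r b l u) rfl (evR_lc (v := cBb6 r b l u) rfl (evR_lc (v := cBq6 r b l u) rfl (evR_lc (v := cLq6 r b l u) rfl (evR_lc (v := cdn6 r b l u) rfl (evR_lc (v := crhs6 r b l u) rfl (rfl))))))))))))))))))))))))))))))))))))))))))))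

/-- Value of x6. -/
noncomputable def fx6 (r b l u : ℝ) : ℝ := (faq r b l u - rv 281475312254976)

/-- Value of y6. -/
noncomputable def fy6 (r b l u : ℝ) : ℝ := (ftq r b l u - rv 281475089956864)

/-- Value of Ab6. -/
noncomputable def fAb6 (r b l u : ℝ) : ℝ := AbF (fx6 r b l u) (fy6 r b l u)

/-- Value of Bb6. -/
noncomputable def fBb6 (r b l u : ℝ) : ℝ := BbF (fx6 r b l u) (fy6 r b l u)

/-- Value of Bq6. -/
noncomputable def fBq6 (r b l u : ℝ) : ℝ := (fBb6 r b l u * fBb6 r b l u)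

/-- Value of Lq6. -/
noncomputable def fLq6 (r b l u : ℝ) : ℝ := (l * l)

/-- Value of dn6. -/
noncomputable def fdn6 (r b l u : ℝ) : ℝ := (rv 281475245146112 + (rv 281475083665408 * (fBb6 r b l u * fXv r b l u)))

/-- Value of rhs6. -/
noncomputable def frhs6 (r b l u : ℝ) : ℝ := (((fLq6 r b l u * fAb6 r b l u) + (rv 281475034122496 * (fBq6 r b l u * (fdn6 r b l u)⁻¹))) + rv 281474976776192)

/-- Value of the program K6f. -/
noncomputable def RK6f (r b l u : ℝ) : ℝ := ((fM r b l u * (fS r b l u * fS r b l u)) - ((fNx r b l u * fNx r b l u) * frhs6 r b l u))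

set_option maxRecDepth 100000 in
theorem evR_K6f (r b l u : ℝ) : Ex.evR K6f [r, b, l, u] = RK6f r b l u :=
  evR_lc (v := fa2 r b l u) rfl (evR_lc (v := fa3 r b l u) rfl (evR_lc (v := fa4 r b l u) rfl (evR_lc (v := fa5 r b l u) rfl (evR_lc (v := fa6 r b l u) rfl (evR_lc (v := fa7 r b l u) rfl (evR_lc (v := fa8 r b l u) rfl (evR_lc (v := fa9 r b l u) rfl (evR_lc (v := fb2 r b l u) rfl (evR_lc (v := fb3 r b l u) rfl (evR_lc (v := fb4 r b l u) rfl (evR_lc (v := fb5 r b l u) rfl (evR_lc (v := fb6 r b l u) rfl (evR_lc (v := fb7 r b l u) rfl (evR_lc (v := fb8 r b l u) rfl (evR_lc (v := fb9 r b l u) rfl (evR_lc (v := fS r b l u) rfl (evR_lc (v := fm1 r b l u) rfl (evR_lc (v := fm2 r b l u) rfl (evR_lc (v := fmp r b l u) rfl (evR_lc (v := fLp r b l u) rfl (evR_lc (v := fP0 r b l u) rfl (evR_lc (v := fP1 r b l u) rfl (evR_lc (v := fPt r b l u) rfl (evR_lc (v := fNx r b l u) rfl (evR_lc (v := fM r b l u) rfl (evR_lc (v := fiS r b l u) rfl (evR_lc (v :=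 fXv r b l u) rfl (evR_lc (v := faq r b l u) rfl (evR_lc (v := ftq r b l u) rfl (evR_lc (v := fx6 r b l u) rfl (evR_lc (v := fy6 r b l u) rfl (evR_lc (v := fAb6 r b l u) rfl (evR_lc (v := fBb6 r b l u) rfl (evR_lc (v := fBq6 r b l u) rfl (evR_lc (v := fLq6 r b l u) rfl (evR_lc (v := fdn6 r b l u) rfl (evR_lc (v := frhs6 r b l u) rfl (rfl))))))))))))))))))))))))))))))))))))))

/-- Value of w. -/
noncomputable def nw (r b l u : ℝ) : ℝ := (rv 281491351273472 - (rv 281492892614656 * b))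

/-- Value of r2. -/
noncomputable def nr2 (r b l u : ℝ) : ℝ := (b * b)

/-- Value of yy. -/
noncomputable def nyy (r b l u : ℝ) : ℝ := (b * r)

/-- Value of Pu. -/
noncomputable def nPu (r b l u : ℝ) : ℝ := (rv 281475110928384 + (r * (rv 281474931971414 + (r * (rv 281474987895467 + (r * (rv 281474974473694 + (r * (rv 281474977083484 + (r * (rv 281474976657395 + (r * (rv 281474976717314 + (r * (rv 281474976709917 + (r * rv 281474976710730))))))))))))))))

/-- Value of Pl. -/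
noncomputable def nPl (r b l u : ℝ) : ℝ := (rv 281475110928384 + (nyy r b l u * (rv 281474931971413 + (nyy r b l u * (rv 281474987895466 + (nyy r b l u * (rv 281474974473693 + (nyy r b l u * (rv 281474977083483 + (nyy r b l u * (rv 281474976657394 + (nyy r b l u * (rv 281474976717313 + (nyy r b l u * (rv 281474976709916 + (nyy r b l u * (rv 281474976710729 + (nyy r b l u * rv 281474976710649))))))))))))))))))

/-- Value of the program KCP. -/
noncomputable def RKCP (r b l u : ℝ) : ℝ := ((rv 281475034122496 * (nw r b l u * nw r b l u)) - ((rv 281475245146112 + (rv 281475083665408 * (r * nw r b l u))) * ((rv 281491351273472 * nPu r b l u) - (rv 281495361028096 * (nr2 r b l u * nPl r b l u)))))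

set_option maxRecDepth 100000 in
theorem evR_KCP (r b l u : ℝ) : Ex.evR KCP [r, b, l, u] = RKCP r b l u :=
  evR_lc (v := nw r b l u) rfl (evR_lc (v := nr2 r b l u) rfl (evR_lc (v := nyy r b l u) rfl (evR_lc (v := nPu r b l u) rfl (evR_lc (v := nPl r b l u) rfl (rfl)))))

/-- Value of the program KXv. -/
noncomputable def RKXv (r b l u : ℝ) : ℝ := ((rv 281495109369856 * cNn r b l u) - (cHp r b l u * cS r b l u))

set_option maxRecDepth 100000 in
theorem evR_KXv (r b l u : ℝ) : Ex.evR KXv [r, b, l, u] = RKXv r b l u :=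
  evR_lc (v := ch r b l u) rfl (evR_lc (v := cg r b l u) rfl (evR_lc (v := cg2 r b l u) rfl (evR_lc (v := cg3 r b l u) rfl (evR_lc (v := cg4 r b l u) rfl (evR_lc (v := cg5 r b l u) rfl (evR_lc (v := cg6 r b l u) rfl (evR_lc (v := cg7 r b l u) rfl (evR_lc (v := cg8 r b l u) rfl (evR_lc (v := cg9 r b l u) rfl (evR_lc (v := ch2 r b l u) rfl (evR_lc (v := ch3 r b l u) rfl (evR_lc (v := ch4 r b l u) rfl (evR_lc (v := ch5 r b l u) rfl (evR_lc (v := ch6 r b l u) rfl (evR_lc (v := cMt r b l u) rfl (evR_lc (v := cst r b l u) rfl (evR_lc (v := cts r b l u) rfl (evR_lc (v := cS r b l u) rfl (evR_lc (v := cy0 r b l u) rfl (evR_lc (v := cy1 r b l u) rfl (evR_lc (v := cy2 r b l u) rfl (evR_lc (v := cD0 r b l u) rfl (evR_lc (v := cD1 r b l u) rfl (evR_lc (v := cD2 r b l u) rfl (evR_lc (v := cP0 r b l u) rfl (evR_lc (v := cP1 r b l u) rfl (evR_lc (v := cPt r b l u) rfl (evR_lc (v := cn0 r b l u) rfl (evR_lc (v := cn1 r b l u) rfl (evR_lc (v := cn2 r b l u) rfl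 (evR_lc (v := cNn r b l u) rfl (evR_lc (v := ciS r b l u) rfl (evR_lc (v := cHq r b l u) rfl (evR_lc (v := cHp r b l u) rfl (rfl)))))))))))))))))))))))))))))))))))

end SP

end Vale.Agent.Lib.P154
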